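import Vale.Agent.P092.H616.CE
import Vale.Agent.P092.H283.Syn1

/-!
# P092, Track H (helper100): `SU(2,n)`, the shared literals

`X` the points (projections of rank one), `P` the singular planes (projections of rank two) in
`Fin n → ℂ`, `D` the form (`Dᴴ = D`, `D * D = 1`), `h(x,y) = xᴴ D y`. `O1` = Lemma O of order one
for a letter of points. `Shape` = the pointwise facts of helper375's instance. `RelHStmt` = the
output of the operator side (helper100). Definitions only.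
-/

namespace Vale.Agent.P092.H100.SU

open Matrix Vale.Agent.P092.H616

variable {n : ℕ} {Y Z : Type*} [TopologicalSpace Y] [CompactSpace Y] [TopologicalSpace Z]
  [CompactSpace Z] {K : Type*} [NormedAddCommGroup K] [InnerProductSpace ℂ K] [CompleteSpace K]

/-- `∑ u_i(x) v_i(y)` is of order one in `h(x,y)` -/
def Sec1 (X : C(Y, Matrix (Fin n) (Fin n) ℂ)) (D : Matrix (Fin n) (Fin n) ℂ) (C : ℝ) {r : ℕ}
    (u v : Fin r → C(Y, ℂ)) : Prop :=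
  ∀ x y, ‖∑ i, u i x * v i y‖ ≤ C * ∑ a, ∑ b, ‖(X x * D * X y) a b‖

/-- `∑ u_i(x) v_i(y)` vanishes near the diagonal -/
def Far1 (X : C(Y, Matrix (Fin n) (Fin n) ℂ)) (δ : ℝ) {r : ℕ} (u v : Fin r → C(Y, ℂ)) : Prop :=
  ∀ x y, (∀ a b, ‖X x a b - X y a b‖ < δ) → ∑ i, u i x * v i y = 0

/-- **Lemma O of order one** for a letter of points -/
def O1 (X : C(Y, Matrix (Fin n) (Fin n) ℂ)) (D : Matrix (Fin n) (Fin n) ℂ)
    (E : C(Y, ℂ) →ₗ[ℂ] (K →L[ℂ] K)) : Prop :=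
  ∀ (r : ℕ) (u v : Fin r → C(Y, ℂ)) (C δ : ℝ), 0 < δ → Sec1 X D C u v → Far1 X δ u v →
    ∑ i, E (u i) * E (v i) = 0

/-- the pointwise facts -/
structure Shape (X : C(Y, Matrix (Fin n) (Fin n) ℂ)) (P : C(Z, Matrix (Fin n) (Fin n) ℂ))
    (D : Matrix (Fin n) (Fin n) ℂ) (c : ℂ) : Prop where
  herm : Dᴴ = D
  sq : D * D = 1
  /-- a point is spanned by an isotropic unit vector -/
  pt : ∀ x, ∃ u : Fin n → ℂ, star u ⬝ᵥ u = 1 ∧ star u ⬝ᵥ (D *ᵥ u) = 0 ∧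
    X x = vecMulVec u (star u)
  /-- a line is spanned by an orthonormal isotropic pair -/
  ln : ∀ z, ∃ a b : Fin n → ℂ, star a ⬝ᵥ a = 1 ∧ star b ⬝ᵥ b = 1 ∧ star a ⬝ᵥ b = 0 ∧
    star a ⬝ᵥ (D *ᵥ a) = 0 ∧ star b ⬝ᵥ (D *ᵥ b) = 0 ∧ star a ⬝ᵥ (D *ᵥ b) = 0 ∧
    P z = vecMulVec a (star a) + vecMulVec b (star b)
  /-- the form is definite on the kernel part, with one sign for all lines -/
  c0 : c = 1 ∨ c = -1
  nu : ∀ z, (1 - P z - D * P z * D) * D = c • (1 - P z - D * P z * D)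

/-- **the output of the operator side** -/
def RelHStmt (X : C(Y, Matrix (Fin n) (Fin n) ℂ)) (P : C(Z, Matrix (Fin n) (Fin n) ℂ))
    (D : Matrix (Fin n) (Fin n) ℂ) : Prop :=
  ∀ {K : Type} [NormedAddCommGroup K] [InnerProductSpace ℂ K] [CompleteSpace K]
    (E : C(Y, ℂ) →ₗ[ℂ] (K →L[ℂ] K)) (F : C(Z, ℂ) →ₗ[ℂ] (K →L[ℂ] K)),
    H828.P.UL E 1 → H828.P.UL F 1 →
    (∀ (f : C(Y, ℂ)) (g : C(Z, ℂ)),
      (∀ x ∈ tsupport f, ∀ z ∈ tsupport g, P z * X x ≠ X x) → E f * F g = 0) →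
    O1 X D E → Cx.Rel X P E F

end Vale.Agent.P092.H100.SU
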