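import Mathlib

/-!
# P092, Track H (helper100): `SU(2,n)`, part 1: the two Gram identities

Over a commutative ring: `J` the form (`J * J = 1`), `p` a point (projection of rank one with
`p * J * p = 0`), `q` a line (rank two, `q * J * q = 0`), `J q J` its partner, `nu` the kernel part
of `1`. `HInc`: first order products vanish, the contact coordinate vanishes. `main1`: first pass
(the symbol of the entries of `J q J p`), `main2`: second pass (the symbol of the entries of
`nu p`).
-/

set_option linter.unusedSectionVars false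
set_option linter.unusedVariables false

namespace Vale.Agent.P092.H100.SU

open Finset Matrix

variable {R : Type*} [CommRing R] {n : Type*} [Fintype n] [DecidableEq n]

/-- a point: a projection of rank one, isotropic for the hermitian form `J` -/
structure PtH (J p : Matrix n n R) : Prop where
  idem : p * p = p
  rk1 : ∀ i j k l, p i j * p k l = p i l * p k j
  tr : p.trace = 1
  iso : p * J * p = 0

/-- a line: a projection of rank two, isotropic for the hermitian form `J` -/
structure LgH (J q : Matrix n n R) : Prop where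
  idem : q * q = q
  iso : q * J * q = 0
  minor : ∀ i c d a b j, q i j * (q c a * q d b - q c b * q d a) -
    q c j * (q i a * q d b - q i b * q d a) + q d j * (q i a * q c b - q i b * q c a) = 0

/-- the kernel part of a line -/
def nu (J q : Matrix n n R) : Matrix n n R := 1 - q - J * q * J

/-- first order products vanish; the contact coordinate vanishes -/
structure HInc (J p q : Matrix n n R) : Prop where
  aa : ∀ i j k l, ((1 - q) * p) i j * ((1 - q) * p) k l = 0
  ab : ∀ i j k l, ((1 - q) * p) i j * (p * (1 - q)) k l = 0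
  bb : ∀ i j k l, (p * (1 - q)) i j * (p * (1 - q)) k l = 0
  co : p * q * J * p = 0
  co' : p * J * q * p = 0

theorem mm3 (A B C : Matrix n n R) (i j : n) :
    (A * B * C) i j = ∑ a, ∑ c, A i a * B a c * C c j := by
  simp only [mul_apply, sum_mul]
  exact sum_comm

theorem tr2 (A B : Matrix n n R) : (A * B).trace = ∑ a, ∑ c, A c a * B a c := by
  rw [trace]
  simp only [diag_apply, mul_apply]
  exact sum_comm

section plane

variable {J q : Matrix n n R}

/-- contraction of a `3 × 3` minor with one matrix -/
theorem minor1 (h : LgH J q) (B : Matrix n n R) (i j d b : n) :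
    q i j * q d b * (q * B).trace - q i j * (q * B * q) d b - q d b * (q * B * q) i j +
      q i b * (q * B * q) d j + q d j * (q * B * q) i b - q d j * q i b * (q * B).trace = 0 := by
  rw [mm3, mm3, mm3, mm3, tr2]
  simp only [mul_sum, ← sum_add_distrib, ← sum_sub_distrib]
  refine sum_eq_zero fun a _ => sum_eq_zero fun c _ => ?_
  linear_combination (B a c) * h.minor i c d a b j

/-- contraction with two matrices -/
theorem minor2 (h : LgH J q) (B C : Matrix n n R) :
    ((q * B).trace * (q * C).trace - (q * B * q * C).trace) • q - (q * C).trace • (q * B * q) -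
      (q * B).trace • (q * C * q) + q * C * (q * B * q) + q * B * q * C * q = 0 := by
  ext i j
  have e1 : (q * B * q * C).trace = ∑ a, ∑ c, (q * B * q) c a * C a c := tr2 _ _
  have e2 : (q * C * (q * B * q)) i j = ∑ a, ∑ c, q i a * C a c * (q * B * q) c j := mm3 _ _ _ _ _
  have e3 : (q * B * q * C * q) i j = ∑ a, ∑ c, (q * B * q) i a * C a c * q c j := mm3 _ _ _ _ _
  have e4 : (q * C * q) i j = ∑ a, ∑ c, q i a * C a c * q c j := mm3 _ _ _ _ _
  have e5 : (q * C).trace = ∑ a, ∑ c, q c a * C a c := tr2 _ _
  simp only [Matrix.add_apply, Matrix.sub_apply, Matrix.smul_apply, smul_eq_mul, Matrix.zero_apply]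
  rw [e1, e2, e3, e4, e5]
  simp only [mul_sum, sum_mul, ← sum_add_distrib, ← sum_sub_distrib]
  refine sum_eq_zero fun a _ => sum_eq_zero fun c _ => ?_
  linear_combination (C a c) * minor1 h B i j c a

/-- **the `3 × 3` Gram determinant** -/
theorem minor3 (h : LgH J q) (A B C : Matrix n n R) :
    (q * A).trace * ((q * B).trace * (q * C).trace - (q * B * q * C).trace) -
      (q * C).trace * (q * B * q * A).trace - (q * B).trace * (q * C * q * A).trace +
      (q * C * (q * B * q) * A).trace + (q * B * q * C * q * A).trace = 0 := by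
  have h1 := congrArg (fun M => (M * A).trace) (minor2 h B C)
  simp only [add_mul, sub_mul, smul_mul_assoc, trace_add, trace_sub, trace_smul, zero_mul,
    trace_zero, smul_eq_mul] at h1
  linear_combination h1

end plane

section pt

variable {J p q : Matrix n n R}

theorem PtH.rk (hp : PtH J p) (M : Matrix n n R) : p * M * p = (p * M).trace • p := by
  ext i l
  rw [Matrix.smul_apply, smul_eq_mul, trace, sum_mul, mul_apply]
  simp only [diag_apply, mul_apply, sum_mul]
  rw [sum_comm]
  conv_rhs => rw [sum_comm]
  refine sum_congr rfl fun j _ => ?_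
  refine sum_congr rfl fun k _ => ?_
  have h := hp.rk1 i j k l
  linear_combination (M j k) * h

theorem LgH.idem' (h : LgH J q) : (1 - q) * (1 - q) = 1 - q := by
  rw [mul_sub, mul_one, sub_mul, one_mul, h.idem, sub_self, sub_zero]

/-- the trace of `A * M * B` vanishes if all products of entries vanish -/
theorem tr_zero {c : R} {A M : Matrix n n R} (h : ∀ i j, c * A i j = 0) : c * (A * M).trace = 0 := by
  rw [tr2, mul_sum]
  refine sum_eq_zero fun a _ => ?_
  rw [mul_sum]
  refine sum_eq_zero fun b _ => ?_
  rw [← mul_assoc, h, zero_mul]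

theorem p_one (hp : PtH J p) (hq : LgH J q) (hi : HInc J p q) : (q * p).trace = 1 := by
  have e1 : (p * (1 - q)).trace = 0 := by
    have e2 : (p * (1 - q)).trace = (p * (1 - q) * ((1 - q) * p)).trace := by
      rw [mul_assoc, ← mul_assoc (1 - q) (1 - q) p, hq.idem', ← mul_assoc,
        trace_mul_comm (p * (1 - q)) p, ← mul_assoc, hp.idem]
    rw [e2, trace]
    refine sum_eq_zero fun i _ => ?_
    rw [diag_apply, mul_apply]
    refine sum_eq_zero fun k _ => ?_
    rw [mul_comm]
    exact hi.ab _ _ _ _
  have e3 : p.trace = (p * q).trace + (p * (1 - q)).trace := by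
    rw [← trace_add, ← mul_add, add_sub_cancel, mul_one]
  rw [e1, add_zero, hp.tr] at e3
  rw [trace_mul_comm]
  exact e3.symm

/-- `p J q = (p (1 - q)) J q` -/
theorem pJq (hq : LgH J q) : p * J * q = p * (1 - q) * J * q := by
  have : p * q * J * q = 0 := by
    rw [mul_assoc (p * q), mul_assoc p, ← mul_assoc q, hq.iso, mul_zero]
  calc p * J * q = p * J * q - p * q * J * q := by rw [this, sub_zero]
    _ = _ := by rw [mul_sub, mul_one, sub_mul, sub_mul]

/-- `q J p = q J ((1 - q) p)` -/
theorem qJp (hq : LgH J q) : q * J * p = q * J * ((1 - q) * p) := by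
  have : q * J * (q * p) = 0 := by rw [← mul_assoc, hq.iso, zero_mul]
  rw [sub_mul, one_mul, mul_sub, this, sub_zero]

theorem q_nu (hq : LgH J q) : q * nu J q = 0 := by
  rw [nu, mul_sub, mul_sub, mul_one, hq.idem, sub_self, zero_sub, ← mul_assoc, ← mul_assoc, hq.iso,
    zero_mul, neg_zero]

theorem nu_q (hq : LgH J q) : nu J q * q = 0 := by
  have : J * q * J * q = 0 := by rw [mul_assoc, mul_assoc, ← mul_assoc q, hq.iso, mul_zero]
  rw [nu, sub_mul, sub_mul, one_mul, hq.idem, sub_self, this, sub_zero]

theorem J_nu (hJ : J * J = 1) : J * nu J q = nu J q * J := by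
  have e1 : J * (J * q * J) = q * J := by rw [← mul_assoc, ← mul_assoc, hJ, one_mul]
  have e2 : J * q * J * J = J * q := by rw [mul_assoc, hJ, mul_one]
  rw [nu, mul_sub, mul_sub, sub_mul, sub_mul, mul_one, one_mul, e1, e2]
  abel

end pt

section mul

variable {J p q : Matrix n n R}

/-- a product of entries of a left first order block with entries of `A p (1-q) B` -/
theorem mul_b {c : R} (h : ∀ i j, c * (p * (1 - q)) i j = 0) (A B : Matrix n n R) (i j : n) :
    c * (A * (p * (1 - q)) * B) i j = 0 := by
  rw [mm3, mul_sum]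
  refine sum_eq_zero fun a _ => ?_
  rw [mul_sum]
  refine sum_eq_zero fun b _ => ?_
  linear_combination (A i a * B b j) * h a b

theorem mul_a {c : R} (h : ∀ i j, c * ((1 - q) * p) i j = 0) (A B : Matrix n n R) (i j : n) :
    c * (A * ((1 - q) * p) * B) i j = 0 := by
  rw [mm3, mul_sum]
  refine sum_eq_zero fun a _ => ?_
  rw [mul_sum]
  refine sum_eq_zero fun b _ => ?_
  linear_combination (A i a * B b j) * h a b

theorem tr_b {c : R} (h : ∀ i j, c * (p * (1 - q)) i j = 0) (A B : Matrix n n R) :
    c * (A * (p * (1 - q)) * B).trace = 0 := by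
  rw [trace, mul_sum]
  exact sum_eq_zero fun i _ => mul_b h A B i i

theorem tr_a {c : R} (h : ∀ i j, c * ((1 - q) * p) i j = 0) (A B : Matrix n n R) :
    c * (A * ((1 - q) * p) * B).trace = 0 := by
  rw [trace, mul_sum]
  exact sum_eq_zero fun i _ => mul_a h A B i i

end mul

section main

variable {J p p' q : Matrix n n R}

/-- the left scalar -/
def lam (J p q p' : Matrix n n R) : R := (p * J * q * p').trace

/-- the right scalar -/
def rho (J p q p' : Matrix n n R) : R := (p * q * J * p').trace

/-- the mixed scalar -/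
def mu (J p q p' : Matrix n n R) : R := (p * J * nu J q * p').trace

theorem lam_b (hi : HInc J p q) (hq : LgH J q) (i j : n) :
    lam J p q p' * (p * (1 - q)) i j = 0 := by
  rw [lam, pJq hq, mul_comm]
  have h := tr_b (p := p) (q := q) (c := (p * (1 - q)) i j) (fun k l => hi.bb i j k l) 1
    (J * q * p')
  rwa [one_mul, ← mul_assoc, ← mul_assoc] at h

theorem lam_a (hi : HInc J p q) (hq : LgH J q) (i j : n) :
    lam J p q p' * ((1 - q) * p) i j = 0 := by
  rw [lam, pJq hq, mul_comm]
  have h := tr_b (p := p) (q := q) (c := ((1 - q) * p) i j) (fun k l => hi.ab i j k l) 1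
    (J * q * p')
  rwa [one_mul, ← mul_assoc, ← mul_assoc] at h

theorem rho_a (hi' : HInc J p' q) (hq : LgH J q) (i j : n) :
    rho J p q p' * ((1 - q) * p') i j = 0 := by
  rw [rho, mul_assoc p, mul_assoc p, qJp hq, mul_comm]
  have h := tr_a (p := p') (q := q) (c := ((1 - q) * p') i j)
    (fun k l => hi'.aa i j k l) (p * (q * J)) 1
  rwa [mul_one, mul_assoc p] at h

theorem rho_b (hi' : HInc J p' q) (hq : LgH J q) (i j : n) :
    rho J p q p' * (p' * (1 - q)) i j = 0 := by
  rw [rho, mul_assoc p, mul_assoc p, qJp hq, mul_comm]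
  have h := tr_a (p := p') (q := q) (c := (p' * (1 - q)) i j)
    (fun k l => by rw [mul_comm]; exact hi'.ab k l i j) (p * (q * J)) 1
  rwa [mul_one, mul_assoc p] at h

/-- `mu` has first order on the left -/
theorem mu_eq (hJ : J * J = 1) (hq : LgH J q) :
    mu J p q p' = (1 * (p * (1 - q)) * (J * nu J q * p')).trace := by
  have e0 : q * J * nu J q = 0 := by
    rw [mul_assoc, J_nu hJ, ← mul_assoc, q_nu hq, zero_mul]
  have e1 : p * q * J * nu J q * p' = 0 := by
    rw [mul_assoc p, mul_assoc p, e0, mul_zero, zero_mul]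
  rw [mu, one_mul, mul_sub, mul_one, sub_mul, trace_sub]
  have e2 : p * q * (J * nu J q * p') = 0 := by
    rw [← mul_assoc, ← mul_assoc]; exact e1
  rw [e2, trace_zero, sub_zero, ← mul_assoc, ← mul_assoc]

/-- `mu` has first order on the right -/
theorem mu_eq' (hJ : J * J = 1) (hq : LgH J q) :
    mu J p q p' = (p * J * nu J q * ((1 - q) * p') * 1).trace := by
  have e2 : p * J * nu J q * (q * p') = 0 := by
    rw [← mul_assoc, mul_assoc (p * J), nu_q hq, mul_zero, zero_mul]
  rw [mul_one, sub_mul, one_mul, mul_sub, e2, sub_zero, mu]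

/-- the form splits -/
theorem split (hJ : J * J = 1) :
    (p * J * p').trace = lam J p q p' + rho J p q p' + mu J p q p' := by
  rw [lam, rho, mu, ← trace_add, ← trace_add]
  congr 1
  have e : p * q * J * p' = p * J * (J * q * J) * p' := by
    calc p * q * J * p' = p * (1 * (q * J)) * p' := by rw [one_mul, ← mul_assoc p]
      _ = _ := by rw [← hJ]; simp only [mul_assoc]
  rw [e, nu]
  simp only [mul_sub, sub_mul, mul_one]
  abel

/-- the square of the form -/
theorem form_sq (hJ : J * J = 1) (hq : LgH J q) (hi : HInc J p q) (hi' : HInc J p' q) :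
    (p * J * p').trace ^ 2 = 2 * (lam J p q p' * rho J p q p') := by
  have h1 : lam J p q p' * lam J p q p' = 0 := by
    nth_rewrite 2 [lam]
    rw [pJq hq]
    have h := tr_b (p := p) (q := q) (c := lam J p q p') (fun k l => lam_b hi hq k l) 1
      (J * q * p')
    rwa [one_mul, ← mul_assoc, ← mul_assoc] at h
  have h2 : lam J p q p' * mu J p q p' = 0 := by
    rw [mu_eq hJ hq]
    exact tr_b (fun k l => lam_b hi hq k l) _ _
  have h3 : rho J p q p' * rho J p q p' = 0 := by
    nth_rewrite 2 [rho]
    rw [mul_assoc p, mul_assoc p, qJp hq]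
    have h := tr_a (p := p') (q := q) (c := rho J p q p')
      (fun k l => rho_a hi' hq k l) (p * (q * J)) 1
    rwa [mul_one, mul_assoc p] at h
  have h4 : rho J p q p' * mu J p q p' = 0 := by
    rw [mu_eq' hJ hq]
    exact tr_a (fun k l => rho_a hi' hq k l) _ _
  have h5 : mu J p q p' * mu J p q p' = 0 := by
    nth_rewrite 2 [mu_eq hJ hq]
    refine tr_b (fun k l => ?_) _ _
    rw [mu_eq hJ hq, mul_comm]
    exact tr_b (fun k' l' => hi.bb k l k' l') _ _
  rw [split hJ]
  linear_combination h1 + h3 + h5 + 2 * h2 + 2 * h4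

/-- the symbol of the first pass: `∑ (J q J p)(J q J p')*` -/
def g1 (J p q p' : Matrix n n R) : R := (p * (J * q * J) * p').trace

theorem g1_eq (hq : LgH J q) : g1 J p q p' = (1 * (p * (1 - q)) * (J * q * J * ((1 - q) * p'))).trace := by
  have e0 : q * (J * q * J) = 0 := by rw [← mul_assoc, ← mul_assoc, hq.iso, zero_mul]
  have e1 : J * q * J * q = 0 := by rw [mul_assoc, mul_assoc, ← mul_assoc q, hq.iso, mul_zero]
  have e2 : (1 - q) * (J * q * J) = J * q * J := by rw [sub_mul, one_mul, e0, sub_zero]
  have e3 : J * q * J * (1 - q) = J * q * J := by rw [mul_sub, mul_one, e1, sub_zero]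
  rw [g1]
  congr 1
  calc p * (J * q * J) * p' = p * ((1 - q) * (J * q * J * (1 - q))) * p' := by rw [e3, e2]
    _ = _ := by rw [one_mul]; simp only [mul_assoc]

theorem g1_left {c : R} (hq : LgH J q) (h : ∀ i j, c * (p * (1 - q)) i j = 0) :
    c * g1 J p q p' = 0 := by
  rw [g1_eq hq]
  exact tr_b h _ _

theorem g1_right {c : R} (hq : LgH J q) (h : ∀ i j, c * ((1 - q) * p') i j = 0) :
    c * g1 J p q p' = 0 := by
  rw [g1_eq hq]
  have h2 := tr_a h (1 * (p * (1 - q)) * (J * q * J)) 1
  rwa [mul_one, mul_assoc] at h2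

theorem g1_trace : (q * (J * p' * p * J)).trace = g1 J p q p' := by
  have e1 : q * (J * p' * p * J) = q * J * p' * (p * J) := by simp only [mul_assoc]
  rw [e1, trace_mul_comm, g1]
  simp only [mul_assoc]

/-- `tr (p p')` may be replaced by `tr (q p q p')` next to the symbol -/
theorem g1_t (hq : LgH J q) (hi : HInc J p q) (hi' : HInc J p' q) :
    (q * p * q * p').trace * g1 J p q p' = (p * p').trace * g1 J p q p' := by
  have e : (p * p').trace = (q * p * q * p').trace + (1 * (p * (1 - q)) * p').trace +
      (q * p * q * p' * (1 - q)).trace + ((1 - q) * p * q * p').trace := by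
    have e1 : p * p' = q * p * q * p' + 1 * (p * (1 - q)) * p' + (1 - q) * p * q * p' := by
      simp only [mul_sub, sub_mul, mul_one, one_mul]
      abel
    have e2 : (q * p * q * p' * (1 - q)).trace = 0 := by
      rw [trace_mul_comm, ← mul_assoc, ← mul_assoc, ← mul_assoc, sub_mul, one_mul, hq.idem, sub_self]
      simp
    rw [e1, trace_add, trace_add, e2, add_zero]
  have h1 : g1 J p q p' * (1 * (p * (1 - q)) * p').trace = 0 := by
    refine tr_b (fun i j => ?_) _ _
    rw [mul_comm]
    exact g1_left hq fun k l => hi.bb i j k l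
  have h2 : g1 J p q p' * ((1 - q) * p * q * p').trace = 0 := by
    have h := tr_a (p := p) (q := q) (c := g1 J p q p') (fun i j => by
      rw [mul_comm]
      exact g1_left hq fun k l => hi.ab i j k l) 1 (q * p')
    rwa [one_mul, ← mul_assoc] at h
  have h3 : (q * p * q * p' * (1 - q)).trace = 0 := by
    rw [trace_mul_comm, ← mul_assoc, ← mul_assoc, ← mul_assoc, sub_mul, one_mul, hq.idem, sub_self]
    simp
  rw [e, h3]
  linear_combination -h1 - h2

/-- `tr (p q J p' q) = rho` -/
theorem rho_q (hp' : PtH J p') (hq : LgH J q) (hi' : HInc J p' q) :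
    (p' * (q * p * q * J)).trace = rho J p q p' := by
  have e1 : (p' * (q * p * q * J)).trace = (p * q * J * p' * q).trace := by
    have : p' * (q * p * q * J) = (p' * q) * (p * q * J) := by simp only [mul_assoc]
    rw [this, trace_mul_comm, mul_assoc (p * q * J)]
  have e2 : (p * q * J * p' * (1 - q)).trace = 0 := by
    have e3 : p * q * J * p' * (1 - q) = p * (q * J) * ((1 - q) * p') * (p' * (1 - q)) := by
      calc p * q * J * p' * (1 - q) = p * (q * J * p') * (1 - q) := by simp only [mul_assoc]
        _ = p * (q * J * ((1 - q) * (p' * p'))) * (1 - q) := by rw [qJp hq, hp'.idem]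
        _ = _ := by simp only [mul_assoc]
    rw [e3, tr2]
    refine sum_eq_zero fun a _ => sum_eq_zero fun c _ => ?_
    rw [mul_comm]
    have h := mul_a (p := p') (q := q) (c := (p' * (1 - q)) a c)
      (fun k l => by rw [mul_comm]; exact hi'.ab k l a c) (p * (q * J)) 1 c a
    rwa [mul_one] at h
  rw [e1, rho]
  have e4 : p * q * J * p' = p * q * J * p' * q + p * q * J * p' * (1 - q) := by
    rw [← mul_add, add_sub_cancel, mul_one]
  have e5 := congrArg trace e4
  rw [trace_add, e2, add_zero] at e5
  exact e5.symm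

/-- **first pass** -/
theorem main1 (hJ : J * J = 1) (hp : PtH J p) (hp' : PtH J p') (hq : LgH J q)
    (hi : HInc J p q) (hi' : HInc J p' q) :
    2 * (1 - (p * p').trace) * g1 J p q p' + (p * J * p').trace ^ 2 = 0 := by
  have h := minor3 hq (J * p' * p * J) p p'
  rw [g1_trace, p_one hp hq hi, p_one hp' hq hi'] at h
  have z1 : (q * p * q * (J * p' * p * J)).trace = 0 := by
    have : q * p * q * (J * p' * p * J) = q * p * (q * J * p') * (p * J) := by
      simp only [mul_assoc]
    rw [this, trace_mul_comm]
    have : p * J * (q * p * (q * J * p')) = (p * J * q * p) * (q * J * p') := by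
      simp only [mul_assoc]
    rw [this, hi.co', zero_mul, trace_zero]
  have z2 : (q * p' * q * (J * p' * p * J)).trace = 0 := by
    have : q * p' * q * (J * p' * p * J) = q * (p' * q * J * p') * (p * J) := by
      simp only [mul_assoc]
    rw [this, hi'.co, mul_zero, zero_mul, trace_zero]
  have z3 : (q * p * q * p' * q * (J * p' * p * J)).trace = 0 := by
    have : q * p * q * p' * q * (J * p' * p * J) = q * p * q * (p' * q * J * p') * (p * J) := by
      simp only [mul_assoc]
    rw [this, hi'.co, mul_zero, zero_mul, trace_zero]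
  have z4 : (q * p' * (q * p * q) * (J * p' * p * J)).trace = lam J p q p' * rho J p q p' := by
    have e1 : q * p' * (q * p * q) * (J * p' * p * J) = q * (p' * (q * p * q * J) * p') * (p * J) := by
      simp only [mul_assoc]
    rw [e1, hp'.rk, rho_q hp' hq hi', mul_smul_comm, smul_mul_assoc, trace_smul, smul_eq_mul,
      trace_mul_comm, lam, mul_comm (rho J p q p')]
    congr 2
    simp only [mul_assoc]
  rw [z1, z2, z3, z4] at h
  have h2 := g1_t hq hi hi'
  rw [form_sq hJ hq hi hi']
  linear_combination 2 * h + 2 * h2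

/-- the symbol of the second pass -/
def g2 (J p q p' : Matrix n n R) : R := (p * nu J q * p').trace

/-- **second pass** -/
theorem main2 (hJ : J * J = 1) {c : R} (hc : nu J q * J = c • nu J q) (h1 : p * (J * q * J) = 0)
    (h2 : J * q * J * p' = 0) : (p * J * p').trace = c * g2 J p q p' := by
  have l0 : lam J p q p' = 0 := by
    have e : p * J * q * p' = p * (J * q * J) * (J * p') := by
      calc p * J * q * p' = p * J * q * (1 * p') := by rw [one_mul]
        _ = _ := by rw [← hJ]; simp only [mul_assoc]
    rw [lam, e, h1, zero_mul, trace_zero]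
  have r0 : rho J p q p' = 0 := by
    have e : p * q * J * p' = p * J * (J * q * J * p') := by
      calc p * q * J * p' = p * (1 * (q * J)) * p' := by rw [one_mul, ← mul_assoc p]
        _ = _ := by rw [← hJ]; simp only [mul_assoc]
    rw [rho, e, h2, mul_zero, trace_zero]
  rw [split hJ, l0, r0, zero_add, zero_add, mu, g2, mul_assoc p, J_nu hJ, hc, mul_smul_comm,
    smul_mul_assoc, trace_smul, smul_eq_mul]

end main

end Vale.Agent.P092.H100.SU
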