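import Vale.Agent.P092.H100.SU.L
import Vale.Agent.P092.H378.C5

/-!
# P092, Track H (helper100): `SU(2,n)`, the far hypotheses from Lemma O of order one

`O1 X D E` kills `T3 E F (iX f * iY g * o)` for disjoint supports, `o = tr (p D p')`, `tr (p' D p)`
and their squares. Traces separate the points.
-/

set_option linter.unusedSectionVars false
set_option linter.unusedVariables false

namespace Vale.Agent.P092.H100.SU

open Finset Matrix Vale.Agent.P092.H378.C Vale.Agent.P092.H616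
open Vale.Agent.P092.H283.Car (en en_apply)

variable {n : ℕ} {Y Z : Type*} [TopologicalSpace Y] [CompactSpace Y] [T2Space Y]
  [TopologicalSpace Z] [CompactSpace Z] [T2Space Z]
  {K : Type*} [NormedAddCommGroup K] [InnerProductSpace ℂ K] [CompleteSpace K]
  {X : C(Y, Matrix (Fin n) (Fin n) ℂ)} {P : C(Z, Matrix (Fin n) (Fin n) ℂ)}
  {D : Matrix (Fin n) (Fin n) ℂ} {c : ℂ}
  {E : C(Y, ℂ) →ₗ[ℂ] (K →L[ℂ] K)} {F : C(Z, ℂ) →ₗ[ℂ] (K →L[ℂ] K)}

/-- Lemma O for a family over any finite type -/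
theorem O1.fin (hO : O1 X D E) {I : Type*} [Fintype I] (u v : I → C(Y, ℂ)) (C δ : ℝ) (hδ : 0 < δ)
    (h1 : ∀ x y, ‖∑ i, u i x * v i y‖ ≤ C * ∑ a, ∑ b, ‖(X x * D * X y) a b‖)
    (h2 : ∀ x y, (∀ a b, ‖X x a b - X y a b‖ < δ) → ∑ i, u i x * v i y = 0) :
    ∑ i, E (u i) * E (v i) = 0 := by
  classical
  let e : I ≃ Fin (Fintype.card I) := Fintype.equivFin I
  have hv : ∀ x y, ∑ i, u (e.symm i) x * v (e.symm i) y = ∑ i, u i x * v i y :=
    fun x y => Equiv.sum_comp e.symm fun t => u t x * v t y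
  have h := hO (Fintype.card I) (fun i => u (e.symm i)) (fun i => v (e.symm i)) C δ hδ
    (fun x y => by
      rw [hv]
      exact h1 x y)
    (fun x y hxy => by
      rw [hv]
      exact h2 x y hxy)
  have h3 : ∑ i, E ((fun i => u (e.symm i)) i) * E ((fun i => v (e.symm i)) i) =
      ∑ t : I, E (u t) * E (v t) := Equiv.sum_comp e.symm fun t => E (u t) * E (v t)
  rw [← h3]
  exact h

/-- two disjoint closed sets of points are uniformly separated in coordinates -/
theorem sepG (hi : Function.Injective X) (f g : C(Y, ℂ)) (hd : Disjoint (tsupport f) (tsupport g)) :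
    ∃ δ > 0, ∀ x ∈ tsupport f, ∀ y ∈ tsupport g, ∃ a b, δ ≤ ‖X x a b - X y a b‖ := by
  let G : Y × Y → ℝ := fun z => ∑ a, ∑ b, ‖X z.1 a b - X z.2 a b‖
  have hG : Continuous G := by
    refine continuous_finset_sum _ fun a _ => continuous_finset_sum _ fun b _ => ?_
    exact (((en X a b).continuous.comp continuous_fst).sub
      ((en X a b).continuous.comp continuous_snd)).norm
  have hK : IsCompact (tsupport f ×ˢ tsupport g) :=
    (isClosed_tsupport f).isCompact.prod (isClosed_tsupport g).isCompact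
  have hpos : ∀ z ∈ tsupport f ×ˢ tsupport g, 0 < G z := by
    rintro ⟨x, y⟩ ⟨hx, hy⟩
    have hxy : x ≠ y := fun h => Set.disjoint_left.1 hd hx (h ▸ hy)
    have h0 : ∀ a ∈ univ, ∀ b ∈ univ, (0 : ℝ) ≤ ‖X x a b - X y a b‖ :=
      fun a _ b _ => norm_nonneg _
    refine lt_of_le_of_ne (Finset.sum_nonneg fun a ha => Finset.sum_nonneg (h0 a ha)) ?_
    intro h
    refine hxy (hi ?_)
    ext a b
    have h1 := (Finset.sum_eq_zero_iff_of_nonneg
      (fun a ha => Finset.sum_nonneg (h0 a ha))).1 h.symm a (mem_univ a)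
    have h2 := (Finset.sum_eq_zero_iff_of_nonneg (h0 a (mem_univ a))).1 h1 b (mem_univ b)
    exact sub_eq_zero.1 (norm_eq_zero.1 h2)
  obtain ⟨δ, hδ, h⟩ := hK.exists_forall_le' hG.continuousOn hpos
  refine ⟨δ / (n * n + 1), by positivity, fun x hx y hy => ?_⟩
  by_contra hc
  push Not at hc
  have h1 := h (x, y) ⟨hx, hy⟩
  have h2 : G (x, y) ≤ ∑ _a : Fin n, ∑ _b : Fin n, δ / (n * n + 1) :=
    Finset.sum_le_sum fun a _ => Finset.sum_le_sum fun b _ => (hc a b).le
  simp only [Finset.sum_const, Finset.card_univ, Fintype.card_fin, nsmul_eq_mul] at h2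
  have h3 : (n : ℝ) * (n * (δ / (n * n + 1))) < δ := by
    rw [← mul_assoc, mul_div_assoc', div_lt_iff₀ (by positivity)]
    nlinarith
  linarith

/-- **the far hypothesis**, general form -/
theorem far_gen (hi : Function.Injective X) (hO : O1 X D E) (hF1 : F 1 = 1) {I : Type*} [Fintype I]
    (w w' : I → C(Y, ℂ)) (C : ℝ)
    (h1 : ∀ x y, ‖∑ i, w i x * w' i y‖ ≤ C * ∑ a, ∑ b, ‖(X x * D * X y) a b‖)
    (f g : C(Y, ℂ)) (hd : Disjoint (tsupport f) (tsupport g)) :
    T3 E F (iX f * iY g * ∑ i, iX (w i) * iY (w' i)) = 0 := by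
  obtain ⟨δ, hδ, hsep⟩ := sepG hi f g hd
  have e1 : T3 E F (iX f * iY g * ∑ i, iX (w i) * iY (w' i)) =
      ∑ i, E (f * w i) * E (g * w' i) := by
    rw [Finset.mul_sum, map_sum]
    refine Finset.sum_congr rfl fun i _ => ?_
    rw [iX_apply, iY_apply, iX_apply, iY_apply, xzx_mul, xzx_mul, xzx_mul, T3_xzx]
    simp only [one_mul, mul_one, hF1]
  rw [e1]
  have hval : ∀ x y, ∑ i, (f * w i) x * (g * w' i) y = f x * g y * ∑ i, w i x * w' i y := by
    intro x y
    rw [Finset.mul_sum]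
    refine Finset.sum_congr rfl fun i _ => ?_
    simp only [ContinuousMap.mul_apply]
    ring
  refine O1.fin hO (fun i => f * w i) (fun i => g * w' i) (‖f‖ * ‖g‖ * C) δ hδ ?_ ?_
  · intro x y
    rw [hval, norm_mul, norm_mul, mul_assoc (‖f‖ * ‖g‖)]
    exact mul_le_mul (mul_le_mul (f.norm_coe_le_norm x) (g.norm_coe_le_norm y) (norm_nonneg _)
      (norm_nonneg _)) (h1 x y) (norm_nonneg _) (by positivity)
  · intro x y hxy
    rw [hval]
    by_cases hx : x ∈ tsupport f
    · by_cases hy : y ∈ tsupport g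
      · obtain ⟨a, b, hab⟩ := hsep x hx y hy
        exact absurd (hxy a b) (not_lt.2 hab)
      · rw [image_eq_zero_of_notMem_tsupport hy, mul_zero, zero_mul]
    · rw [image_eq_zero_of_notMem_tsupport hx, zero_mul, zero_mul]

/-- the trace of a product of three matrices of three letters -/
theorem tr3 {R : Type*} [CommRing R] (A B G : Matrix (Fin n) (Fin n) R) :
    (A * B * G).trace = ∑ t : Fin n × Fin n × Fin n, B t.2.1 t.2.2 * (A t.1 t.2.1 * G t.2.2 t.1) := by
  rw [Fintype.sum_prod_type, trace]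
  refine Finset.sum_congr rfl fun i _ => ?_
  rw [Fintype.sum_prod_type, diag_apply, Matrix.mul_apply]
  simp only [Matrix.mul_apply, Finset.sum_mul]
  rw [Finset.sum_comm]
  exact Finset.sum_congr rfl fun a _ => Finset.sum_congr rfl fun b _ => by ring

/-- the two families of the symbol -/
noncomputable def wL (X : C(Y, Matrix (Fin n) (Fin n) ℂ)) (D : Matrix (Fin n) (Fin n) ℂ)
    (t : Fin n × Fin n × Fin n) : C(Y, ℂ) := D t.2.1 t.2.2 • en X t.1 t.2.1

/-- the right family -/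
noncomputable def wR (X : C(Y, Matrix (Fin n) (Fin n) ℂ)) (t : Fin n × Fin n × Fin n) : C(Y, ℂ) :=
  en X t.2.2 t.1

theorem om_sum : ((p3 X * J3 D * p3' X).trace : R3 Y Z) = ∑ t, iX (wL X D t) * iY (wR X t) := by
  rw [tr3]
  refine Finset.sum_congr rfl fun t _ => ?_
  rw [p3_apply, p3'_apply, J3_apply, wL, wR, map_smul, Algebra.smul_def]
  ring

/-- the two families of the conjugate symbol -/
noncomputable def wL' (X : C(Y, Matrix (Fin n) (Fin n) ℂ)) (D : Matrix (Fin n) (Fin n) ℂ)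
    (t : Fin n × Fin n × Fin n) : C(Y, ℂ) := D t.2.1 t.2.2 • en X t.2.2 t.1

/-- the right family -/
noncomputable def wR' (X : C(Y, Matrix (Fin n) (Fin n) ℂ)) (t : Fin n × Fin n × Fin n) : C(Y, ℂ) :=
  en X t.1 t.2.1

theorem om_sum' : ((p3' X * J3 D * p3 X).trace : R3 Y Z) =
    ∑ t, iX (wL' X D t) * iY (wR' X t) := by
  rw [tr3]
  refine Finset.sum_congr rfl fun t _ => ?_
  rw [p3_apply, p3'_apply, J3_apply, wL', wR', map_smul, Algebra.smul_def]
  ring

theorem tr_le (M : Matrix (Fin n) (Fin n) ℂ) : ‖M.trace‖ ≤ ∑ a, ∑ b, ‖M a b‖ := by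
  rw [trace]
  refine (norm_sum_le _ _).trans (Finset.sum_le_sum fun a _ => ?_)
  exact Finset.single_le_sum (f := fun b => ‖M a b‖) (fun b _ => norm_nonneg _) (mem_univ a)

theorem w_val (x y : Y) : ∑ t, wL X D t x * wR X t y = (X x * D * X y).trace := by
  rw [tr3]
  refine Finset.sum_congr rfl fun t _ => ?_
  rw [wL, wR, ContinuousMap.smul_apply, en_apply, en_apply, smul_eq_mul]
  ring

theorem w_val' (x y : Y) : ∑ t, wL' X D t x * wR' X t y = (X y * D * X x).trace := by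
  rw [tr3]
  refine Finset.sum_congr rfl fun t _ => ?_
  rw [wL', wR', ContinuousMap.smul_apply, en_apply, en_apply, smul_eq_mul]
  ring

theorem w_le (x y : Y) : ‖∑ t, wL X D t x * wR X t y‖ ≤
    1 * ∑ a, ∑ b, ‖(X x * D * X y) a b‖ := by
  rw [w_val, one_mul]
  exact tr_le _

theorem w_le' (hD : Dᴴ = D) (hX : ∀ x, (X x)ᴴ = X x) (x y : Y) :
    ‖∑ t, wL' X D t x * wR' X t y‖ ≤ 1 * ∑ a, ∑ b, ‖(X x * D * X y) a b‖ := by
  rw [w_val', one_mul]
  have h : X y * D * X x = (X x * D * X y)ᴴ := by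
    rw [conjTranspose_mul, conjTranspose_mul, hD, hX, hX, Matrix.mul_assoc]
  rw [h, trace_conjTranspose, norm_star]
  exact tr_le _

/-- the bound of a product of two families -/
theorem sq_le {I : Type*} [Fintype I] {w w' : I → C(Y, ℂ)} {C : ℝ}
    (h1 : ∀ x y, ‖∑ i, w i x * w' i y‖ ≤ C * ∑ a, ∑ b, ‖(X x * D * X y) a b‖) (x y : Y) :
    ‖∑ i : I × I, (w i.1 * w i.2) x * (w' i.1 * w' i.2) y‖ ≤
      ((∑ i, ‖w i‖ * ‖w' i‖) * C) * ∑ a, ∑ b, ‖(X x * D * X y) a b‖ := by
  have e1 : ∑ i : I × I, (w i.1 * w i.2) x * (w' i.1 * w' i.2) y =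
      (∑ i, w i x * w' i y) * ∑ i, w i x * w' i y := by
    rw [Finset.sum_mul_sum, Fintype.sum_prod_type]
    refine Finset.sum_congr rfl fun i _ => Finset.sum_congr rfl fun j _ => ?_
    simp only [ContinuousMap.mul_apply]
    ring
  rw [e1, norm_mul, mul_assoc]
  refine mul_le_mul ?_ (h1 x y) (norm_nonneg _)
    (Finset.sum_nonneg fun i _ => mul_nonneg (norm_nonneg _) (norm_nonneg _))
  refine (norm_sum_le _ _).trans (Finset.sum_le_sum fun i _ => ?_)
  rw [norm_mul]
  exact mul_le_mul ((w i).norm_coe_le_norm x) ((w' i).norm_coe_le_norm y) (norm_nonneg _)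
    (norm_nonneg _)

theorem sq_sum {I : Type*} [Fintype I] (w w' : I → C(Y, ℂ)) :
    (∑ i, (iX (w i) * iY (w' i) : R3 Y Z)) ^ 2 =
      ∑ i : I × I, iX (w i.1 * w i.2) * iY (w' i.1 * w' i.2) := by
  rw [sq, Finset.sum_mul_sum, Fintype.sum_prod_type]
  refine Finset.sum_congr rfl fun i _ => Finset.sum_congr rfl fun j _ => ?_
  rw [map_mul, map_mul]
  ring

section ends

variable (hi : Function.Injective X) (hO : O1 X D E) (hF1 : F 1 = 1) (hD : Dᴴ = D)
  (hX : ∀ x, (X x)ᴴ = X x) (f g : C(Y, ℂ)) (hd : Disjoint (tsupport f) (tsupport g))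

include hi hO hF1 hd

theorem far1 : T3 E F (iX f * iY g * (p3 X * J3 D * p3' X).trace) = 0 := by
  rw [om_sum]
  exact far_gen hi hO hF1 _ _ 1 w_le f g hd

theorem far2 : T3 E F (iX f * iY g * (p3 X * J3 D * p3' X).trace ^ 2) = 0 := by
  rw [om_sum, sq_sum]
  exact far_gen hi hO hF1 _ _ _ (sq_le w_le) f g hd

include hD hX

theorem far1' : T3 E F (iX f * iY g * (p3' X * J3 D * p3 X).trace) = 0 := by
  rw [om_sum']
  exact far_gen hi hO hF1 _ _ 1 (w_le' hD hX) f g hd

theorem far2' : T3 E F (iX f * iY g * (p3' X * J3 D * p3 X).trace ^ 2) = 0 := by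
  rw [om_sum', sq_sum]
  exact far_gen hi hO hF1 _ _ _ (sq_le (w_le' hD hX)) f g hd

end ends

/-- the trace separates points -/
theorem tr_neG (hG : Cx.Geo X P) {x y : Y} (h : x ≠ y) :
    ∑ i : Fin n × Fin n, en X i.1 i.2 x * en X i.2 i.1 y ≠ 1 := by
  intro h1
  have h2 := Cx.tr_lt (hG.pt x) (hG.pt y) (fun h3 => h (hG.injX h3))
  rw [Fintype.sum_prod_type] at h1
  simp only [en_apply] at h1
  rw [h1, norm_one] at h2
  exact lt_irrefl _ h2

end Vale.Agent.P092.H100.SU
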