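import Vale.Agent.P092.H100.SU.M
import Vale.Agent.P092.H100.SU.Defs

/-!
# P092, Track H (helper100): `SU(2,n)`, pointwise facts from `Shape`
-/

set_option linter.unusedSectionVars false
set_option linter.unusedVariables false

namespace Vale.Agent.P092.H100.SU

open Finset Matrix Vale.Agent.P092.H378.C Vale.Agent.P092.H616

section vec

variable {n : ℕ} {D : Matrix (Fin n) (Fin n) ℂ} {a b c d u : Fin n → ℂ}

theorem vm3 (M : Matrix (Fin n) (Fin n) ℂ) (a b c d : Fin n → ℂ) :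
    vecMulVec a b * M * vecMulVec c d = (b ⬝ᵥ (M *ᵥ c)) • vecMulVec a d := by
  ext i j
  rw [Matrix.mul_assoc, Matrix.mul_vecMulVec, Matrix.mul_apply, Matrix.smul_apply]
  simp only [vecMulVec_apply, smul_eq_mul]
  rw [dotProduct, Finset.sum_mul]
  exact Finset.sum_congr rfl fun k _ => by ring

theorem vm2 (a b c d : Fin n → ℂ) :
    vecMulVec a b * vecMulVec c d = (b ⬝ᵥ c) • vecMulVec a d := by
  have h := vm3 1 a b c d
  rwa [Matrix.mul_one, Matrix.one_mulVec] at h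

theorem star_form (hD : Dᴴ = D) (a b : Fin n → ℂ) :
    star (star a ⬝ᵥ (D *ᵥ b)) = star b ⬝ᵥ (D *ᵥ a) := by
  rw [← star_dotProduct, star_mulVec, hD, ← dotProduct_mulVec]

/-- a unit isotropic vector gives a point -/
theorem ptH_of (h1 : star u ⬝ᵥ u = 1) (h2 : star u ⬝ᵥ (D *ᵥ u) = 0) :
    PtH D (vecMulVec u (star u)) where
  idem := by rw [vm2, h1, one_smul]
  rk1 := fun i j k l => by
    simp only [vecMulVec_apply, Pi.star_apply]
    ring
  tr := by rw [trace_vecMulVec, dotProduct_comm, h1]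
  iso := by rw [vm3, h2, zero_smul]

/-- an orthonormal isotropic pair gives a line -/
theorem lgH_of (h1 : star a ⬝ᵥ a = 1) (h2 : star b ⬝ᵥ b = 1) (h3 : star a ⬝ᵥ b = 0)
    (h4 : star b ⬝ᵥ a = 0) (h5 : star a ⬝ᵥ (D *ᵥ a) = 0) (h6 : star b ⬝ᵥ (D *ᵥ b) = 0)
    (h7 : star a ⬝ᵥ (D *ᵥ b) = 0) (h8 : star b ⬝ᵥ (D *ᵥ a) = 0) :
    LgH D (vecMulVec a (star a) + vecMulVec b (star b)) where
  idem := by
    simp only [Matrix.add_mul, Matrix.mul_add, vm2, h1, h2, h3, h4, one_smul, zero_smul, add_zero,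
      zero_add]
  iso := by
    simp only [Matrix.add_mul, Matrix.mul_add, vm3, h5, h6, h7, h8, zero_smul, add_zero]
  minor := fun i c d a' b' j => by
    simp only [Matrix.add_apply, vecMulVec_apply, Pi.star_apply]
    ring

end vec

section shape

variable {n : ℕ} {Y Z : Type*} [TopologicalSpace Y] [CompactSpace Y] [TopologicalSpace Z]
  [CompactSpace Z] {X : C(Y, Matrix (Fin n) (Fin n) ℂ)} {P : C(Z, Matrix (Fin n) (Fin n) ℂ)}
  {D : Matrix (Fin n) (Fin n) ℂ} {c : ℂ}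

theorem Shape.pH (S : Shape X P D c) (x : Y) : PtH D (X x) := by
  obtain ⟨u, h1, h2, h3⟩ := S.pt x
  rw [h3]
  exact ptH_of h1 h2

theorem Shape.lH (S : Shape X P D c) (z : Z) : LgH D (P z) := by
  obtain ⟨a, b, h1, h2, h3, h4, h5, h6, h7⟩ := S.ln z
  rw [h7]
  have h3' : star b ⬝ᵥ a = 0 := by rw [star_dotProduct, h3, star_zero]
  have h6' : star b ⬝ᵥ (D *ᵥ a) = 0 := by rw [← star_form S.herm, h6, star_zero]
  exact lgH_of h1 h2 h3 h3' h4 h5 h6 h6'

theorem Shape.Xh (S : Shape X P D c) (x : Y) : (X x)ᴴ = X x := by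
  obtain ⟨u, h1, h2, h3⟩ := S.pt x
  rw [h3, conjTranspose_vecMulVec, star_star]

theorem Shape.Ph (S : Shape X P D c) (z : Z) : (P z)ᴴ = P z := by
  obtain ⟨a, b, h1, h2, h3, h4, h5, h6, h7⟩ := S.ln z
  rw [h7, conjTranspose_add, conjTranspose_vecMulVec, conjTranspose_vecMulVec, star_star, star_star]

theorem Shape.vec (S : Shape X P D c) : ∃ v : Y → Fin n → ℂ, (∀ x, star (v x) ⬝ᵥ v x = 1) ∧
    ∀ x, X x = vecMulVec (v x) (star (v x)) := by
  choose v h1 h2 h3 using S.pt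
  exact ⟨v, h1, h3⟩

theorem shape_nu (S : Shape X P D c) (z : Z) : nu D (P z) * D = c • nu D (P z) := S.nu z

end shape

end Vale.Agent.P092.H100.SU
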