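import Vale.Agent.P092.H378.C4
import Vale.Agent.P092.H100.SU.A1

/-!
# P092, Track H (helper100): `SU(2,n)`, maps and lifts of the ring records

`PtH`, `LgH`, `HInc` along a ring map; from pointwise facts to `C(X, ℂ)` and to the ring of two
letters (`p2`, `q2`, `J2` of helper378); the two Gram symbols as sums of products of one entry in
each pair of letters; the entries of the two factors are conjugate.
-/

set_option linter.unusedSectionVars false
set_option linter.unusedVariables false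

namespace Vale.Agent.P092.H100.SU

open Finset Matrix Vale.Agent.P092.H378.C
open Vale.Agent.P092.H283.Car (en en_apply)

section map

variable {R S : Type*} [CommRing R] [CommRing S] {n : Type*} [Fintype n] [DecidableEq n]
  (f : R →+* S) {J p q : Matrix n n R}

theorem PtH.map (h : PtH J p) : PtH (J.map f) (p.map f) where
  idem := by rw [← Matrix.map_mul, h.idem]
  rk1 := fun i j k l => by
    simp only [Matrix.map_apply, ← map_mul, h.rk1 i j k l]
  tr := by rw [map_trace, h.tr, map_one]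
  iso := by
    rw [← Matrix.map_mul, ← Matrix.map_mul, h.iso]
    ext i j
    simp

theorem LgH.map (h : LgH J q) : LgH (J.map f) (q.map f) where
  idem := by rw [← Matrix.map_mul, h.idem]
  iso := by
    rw [← Matrix.map_mul, ← Matrix.map_mul, h.iso]
    ext i j
    simp
  minor := fun i c d a b j => by
    simp only [Matrix.map_apply, ← map_mul, ← map_sub, ← map_add, h.minor i c d a b j, map_zero]

theorem HInc.map (h : HInc J p q) : HInc (J.map f) (p.map f) (q.map f) where
  aa := fun i j k l => by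
    rw [← map_one_sub f, ← Matrix.map_mul, Matrix.map_apply, Matrix.map_apply, ← map_mul, h.aa,
      map_zero]
  ab := fun i j k l => by
    rw [← map_one_sub f, ← Matrix.map_mul, ← Matrix.map_mul, Matrix.map_apply, Matrix.map_apply,
      ← map_mul, h.ab, map_zero]
  bb := fun i j k l => by
    rw [← map_one_sub f, ← Matrix.map_mul, Matrix.map_apply, Matrix.map_apply, ← map_mul, h.bb,
      map_zero]
  co := by
    rw [← Matrix.map_mul, ← Matrix.map_mul, ← Matrix.map_mul, h.co]
    ext i j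
    simp
  co' := by
    rw [← Matrix.map_mul, ← Matrix.map_mul, ← Matrix.map_mul, h.co']
    ext i j
    simp

theorem sq_map (h : J * J = 1) : J.map f * J.map f = 1 := by
  rw [← Matrix.map_mul, h, Matrix.map_one f (map_zero f) (map_one f)]

theorem nu_map : nu (J.map f) (q.map f) = (nu J q).map f := by
  rw [nu, nu, Matrix.map_sub f (fun a b => map_sub f a b), map_one_sub, Matrix.map_mul,
    Matrix.map_mul]

theorem g1_map (p' : Matrix n n R) :
    g1 (J.map f) (p.map f) (q.map f) (p'.map f) = f (g1 J p q p') := by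
  simp only [g1, ← Matrix.map_mul, map_trace]

theorem g2_map (p' : Matrix n n R) :
    g2 (J.map f) (p.map f) (q.map f) (p'.map f) = f (g2 J p q p') := by
  simp only [g2, nu_map, ← Matrix.map_mul, map_trace]

theorem nuJ_map {c : R} (h : nu J q * J = c • nu J q) :
    nu (J.map f) (q.map f) * J.map f = f c • nu (J.map f) (q.map f) := by
  rw [nu_map, ← Matrix.map_mul, h]
  ext i j
  simp

end map

section idem

variable {R : Type*} [CommRing R] {n : Type*} [Fintype n] [DecidableEq n] {J p q p' : Matrix n n R}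

theorem jqj_idem (hJ : J * J = 1) (hq : LgH J q) : J * q * J * (J * q * J) = J * q * J := by
  calc J * q * J * (J * q * J) = J * q * (J * J) * q * J := by simp only [Matrix.mul_assoc]
    _ = J * (q * q) * J := by rw [hJ]; simp only [Matrix.mul_assoc, Matrix.one_mul]
    _ = J * q * J := by rw [hq.idem]

theorem nu_jqj (hJ : J * J = 1) (hq : LgH J q) : nu J q * (J * q * J) = 0 := by
  calc nu J q * (J * q * J) = J * q * J - q * J * q * J - J * q * J * (J * q * J) := by
        rw [nu]; simp only [Matrix.sub_mul, Matrix.one_mul, Matrix.mul_assoc]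
    _ = 0 := by rw [hq.iso, Matrix.zero_mul, sub_zero, jqj_idem hJ hq, sub_self]

theorem nu_idem (hJ : J * J = 1) (hq : LgH J q) : nu J q * nu J q = nu J q := by
  have h : nu J q * nu J q = nu J q - nu J q * q - nu J q * (J * q * J) := by
    conv_lhs => rw [show nu J q * nu J q = nu J q * (1 - q - J * q * J) from rfl]
    rw [Matrix.mul_sub, Matrix.mul_sub, Matrix.mul_one]
  rw [h, nu_q hq, nu_jqj hJ hq, sub_zero, sub_zero]

theorem tr_split {e : Matrix n n R} (he : e * e = e) :
    (p * e * p').trace = ∑ i, ∑ j, (p * e) i j * (e * p') j i := by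
  have h : p * e * p' = p * e * (e * p') := by
    calc p * e * p' = p * (e * e) * p' := by rw [he]
      _ = _ := by simp only [Matrix.mul_assoc]
  rw [h, trace]
  refine Finset.sum_congr rfl fun i _ => ?_
  rw [diag_apply, mul_apply]

/-- the first symbol -/
theorem g1_sum (hJ : J * J = 1) (hq : LgH J q) :
    g1 J p q p' = ∑ i, ∑ j, (p * (J * q * J)) i j * (J * q * J * p') j i :=
  tr_split (jqj_idem hJ hq)

/-- the second symbol -/
theorem g2_sum (hJ : J * J = 1) (hq : LgH J q) :
    g2 J p q p' = ∑ i, ∑ j, (p * nu J q) i j * (nu J q * p') j i :=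
  tr_split (nu_idem hJ hq)

/-- the left factor of the first symbol is of first order -/
theorem b_jqj (hq : LgH J q) : p * (J * q * J) = p * (1 - q) * (J * q * J) := by
  have h : q * (J * q * J) = 0 := by
    calc q * (J * q * J) = q * J * q * J := by simp only [Matrix.mul_assoc]
      _ = 0 := by rw [hq.iso, Matrix.zero_mul]
  calc p * (J * q * J) = p * (J * q * J) - p * (q * (J * q * J)) := by
        rw [h, Matrix.mul_zero, sub_zero]
    _ = _ := by simp only [Matrix.mul_sub, Matrix.sub_mul, Matrix.mul_one, Matrix.mul_assoc]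

/-- the right factor of the first symbol is of first order -/
theorem a_jqj (hq : LgH J q) : J * q * J * p = J * q * J * ((1 - q) * p) := by
  have h : J * q * J * q = 0 := by
    calc J * q * J * q = J * (q * J * q) := by simp only [Matrix.mul_assoc]
      _ = 0 := by rw [hq.iso, Matrix.mul_zero]
  calc J * q * J * p = J * q * J * p - J * q * J * q * p := by
        rw [h, Matrix.zero_mul, sub_zero]
    _ = _ := by simp only [Matrix.mul_sub, Matrix.sub_mul, Matrix.one_mul, Matrix.mul_assoc]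

theorem b_nu (hq : LgH J q) : p * nu J q = p * (1 - q) * nu J q := by
  calc p * nu J q = p * nu J q - p * (q * nu J q) := by rw [q_nu hq, Matrix.mul_zero, sub_zero]
    _ = _ := by simp only [Matrix.mul_sub, Matrix.sub_mul, Matrix.mul_one, Matrix.mul_assoc]

theorem a_nu (hq : LgH J q) : nu J q * p = nu J q * ((1 - q) * p) := by
  calc nu J q * p = nu J q * p - nu J q * q * p := by rw [nu_q hq, Matrix.zero_mul, sub_zero]
    _ = _ := by simp only [Matrix.mul_sub, Matrix.sub_mul, Matrix.one_mul, Matrix.mul_assoc]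

/-- the end: both parts vanish -/
theorem end_a (h1 : J * q * J * p = 0) (h2 : nu J q * p = 0) : (1 - q) * p = 0 := by
  calc (1 - q) * p = nu J q * p + J * q * J * p := by
        rw [nu]; simp only [Matrix.sub_mul, Matrix.one_mul]; abel
    _ = 0 := by rw [h1, h2, add_zero]

theorem end_b (h1 : p * (J * q * J) = 0) (h2 : p * nu J q = 0) : p * (1 - q) = 0 := by
  calc p * (1 - q) = p * nu J q + p * (J * q * J) := by
        rw [nu]; simp only [Matrix.mul_sub, Matrix.mul_one]; abel
    _ = 0 := by rw [h1, h2, add_zero]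

end idem

section lift

variable {X : Type*} [TopologicalSpace X] {n : ℕ} {J : Matrix (Fin n) (Fin n) ℂ}
  {A : C(X, Matrix (Fin n) (Fin n) ℂ)}

theorem PtH.lift (h : ∀ x, PtH J (A x)) : PtH (J.map (algebraMap ℂ C(X, ℂ))) (mf A) where
  idem := mext fun x => by rw [Matrix.map_mul, mf_ev, (h x).idem]
  rk1 := fun i j k l => by
    ext x
    exact (h x).rk1 i j k l
  tr := by
    ext x
    have h1 := map_trace (evp x) (mf A)
    rw [mf_ev, (h x).tr] at h1
    exact h1.symm
  iso := mext fun x => by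
    rw [Matrix.map_mul, Matrix.map_mul, mf_ev, cst_ev, (h x).iso]
    ext i j
    rfl

theorem LgH.lift (h : ∀ x, LgH J (A x)) : LgH (J.map (algebraMap ℂ C(X, ℂ))) (mf A) where
  idem := mext fun x => by rw [Matrix.map_mul, mf_ev, (h x).idem]
  iso := mext fun x => by
    rw [Matrix.map_mul, Matrix.map_mul, mf_ev, cst_ev, (h x).iso]
    ext i j
    rfl
  minor := fun i c d a b j => by
    ext x
    exact (h x).minor i c d a b j

theorem nuJ_lift {c : ℂ} (h : ∀ x, nu J (A x) * J = c • nu J (A x)) :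
    nu (J.map (algebraMap ℂ C(X, ℂ))) (mf A) * J.map (algebraMap ℂ C(X, ℂ)) =
      algebraMap ℂ C(X, ℂ) c • nu (J.map (algebraMap ℂ C(X, ℂ))) (mf A) :=
  mext fun x => by
    rw [Matrix.map_mul, ← nu_map, mf_ev, cst_ev, h x]
    have h1 : (algebraMap ℂ C(X, ℂ) c • nu (J.map (algebraMap ℂ C(X, ℂ))) (mf A)).map (evp x) =
        c • (nu (J.map (algebraMap ℂ C(X, ℂ))) (mf A)).map (evp x) := by
      ext i j
      rfl
    rw [h1, ← nu_map, mf_ev, cst_ev]

end lift

section two

variable {X Z : Type*} [TopologicalSpace X] [CompactSpace X] [TopologicalSpace Z] [CompactSpace Z]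
  {n : ℕ} {Q : C(X, Matrix (Fin n) (Fin n) ℂ)} {P : C(Z, Matrix (Fin n) (Fin n) ℂ)}
  {J : Matrix (Fin n) (Fin n) ℂ}

theorem J2_sq (h : J * J = 1) : (J2 J * J2 J : Matrix (Fin n) (Fin n) (R2 X Z)) = 1 :=
  sq_map (algebraMap ℂ (R2 X Z)) h

theorem p2_ptH (h : ∀ x, PtH J (Q x)) : PtH (J2 J : Matrix (Fin n) (Fin n) (R2 X Z)) (p2 Q) := by
  have h1 := PtH.map ((jX : C(X, ℂ) →ₐ[ℂ] R2 X Z) : C(X, ℂ) →+* R2 X Z) (PtH.lift h)
  have h2 : (J.map (algebraMap ℂ C(X, ℂ))).map ((jX : C(X, ℂ) →ₐ[ℂ] R2 X Z) : C(X, ℂ) →+* R2 X Z) =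
      J2 J := by
    ext i j
    exact AlgHom.commutes (jX : C(X, ℂ) →ₐ[ℂ] R2 X Z) (J i j)
  rw [h2] at h1
  exact h1

theorem q2_lgH (h : ∀ z, LgH J (P z)) : LgH (J2 J : Matrix (Fin n) (Fin n) (R2 X Z)) (q2 P) := by
  have h1 := LgH.map ((jZ : C(Z, ℂ) →ₐ[ℂ] R2 X Z) : C(Z, ℂ) →+* R2 X Z) (LgH.lift h)
  have h2 : (J.map (algebraMap ℂ C(Z, ℂ))).map ((jZ : C(Z, ℂ) →ₐ[ℂ] R2 X Z) : C(Z, ℂ) →+* R2 X Z) =
      J2 J := by
    ext i j
    exact AlgHom.commutes (jZ : C(Z, ℂ) →ₐ[ℂ] R2 X Z) (J i j)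
  rw [h2] at h1
  exact h1

theorem q2_nuJ {c : ℂ} (h : ∀ z, nu J (P z) * J = c • nu J (P z)) :
    nu (J2 J : Matrix (Fin n) (Fin n) (R2 X Z)) (q2 P) * J2 J =
      algebraMap ℂ (R2 X Z) c • nu (J2 J) (q2 P) := by
  have h1 := nuJ_map ((jZ : C(Z, ℂ) →ₐ[ℂ] R2 X Z) : C(Z, ℂ) →+* R2 X Z) (nuJ_lift h)
  have h2 : (J.map (algebraMap ℂ C(Z, ℂ))).map ((jZ : C(Z, ℂ) →ₐ[ℂ] R2 X Z) : C(Z, ℂ) →+* R2 X Z) =
      J2 J := by
    ext i j
    exact AlgHom.commutes (jZ : C(Z, ℂ) →ₐ[ℂ] R2 X Z) (J i j)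
  have h3 : ((jZ : C(Z, ℂ) →ₐ[ℂ] R2 X Z) : C(Z, ℂ) →+* R2 X Z) (algebraMap ℂ C(Z, ℂ) c) =
      algebraMap ℂ (R2 X Z) c := AlgHom.commutes (jZ : C(Z, ℂ) →ₐ[ℂ] R2 X Z) c
  rw [h2, h3] at h1
  exact h1

/-- conjugate entries from the adjoint -/
theorem ev_conj {M N : Matrix (Fin n) (Fin n) (R2 X Z)} (y : X × Z)
    (h : (M.map (evr y))ᴴ = N.map (evr y)) (i j : Fin n) :
    evr y (N j i) = star (evr y (M i j)) := by
  have h1 := congrFun (congrFun h j) i
  rw [conjTranspose_apply, Matrix.map_apply, Matrix.map_apply] at h1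
  exact h1.symm

/-- the factors of the first symbol are conjugate -/
theorem conj1 (hJ : Jᴴ = J) (hQ : ∀ x, (Q x)ᴴ = Q x) (hP : ∀ z, (P z)ᴴ = P z) (y : X × Z)
    (i j : Fin n) :
    evr y ((J2 J * q2 P * J2 J * p2 Q : Matrix (Fin n) (Fin n) (R2 X Z)) j i) =
      star (evr y ((p2 Q * (J2 J * q2 P * J2 J) : Matrix (Fin n) (Fin n) (R2 X Z)) i j)) := by
  refine ev_conj y ?_ i j
  simp only [Matrix.map_mul, p2_ev, q2_ev, J2_ev, conjTranspose_mul, hJ, hQ, hP, Matrix.mul_assoc]

/-- the factors of the second symbol are conjugate -/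
theorem conj2 (hJ : Jᴴ = J) (hQ : ∀ x, (Q x)ᴴ = Q x) (hP : ∀ z, (P z)ᴴ = P z) (y : X × Z)
    (i j : Fin n) :
    evr y ((nu (J2 J) (q2 P) * p2 Q : Matrix (Fin n) (Fin n) (R2 X Z)) j i) =
      star (evr y ((p2 Q * nu (J2 J) (q2 P) : Matrix (Fin n) (Fin n) (R2 X Z)) i j)) := by
  refine ev_conj y ?_ i j
  rw [Matrix.map_mul, Matrix.map_mul, ← nu_map, p2_ev, q2_ev, J2_ev, conjTranspose_mul, hQ]
  congr 1
  simp only [nu, conjTranspose_sub, conjTranspose_mul, conjTranspose_one, hJ, hP, Matrix.mul_assoc]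

end two

end Vale.Agent.P092.H100.SU
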